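import Vale.Agent.P214.SG.Main
import Vale.Agent.P214.GEN.Vcmp
import Vale.Agent.P214.GEN.Props
import Vale.Agent.P214.R2.WinSk
import Vale.Agent.P214.TCH.Mass

/-!
# P214, block SG: the steep growth lemma over the unit cylinder, in terms of `GEN.AA`
-/

open Set Filter Topology MeasureTheory Metric
open scoped RealInnerProductSpace

set_option linter.all false

namespace Vale.Agent.P214.SG

open Vale.Agent.P214.Skel Vale.Agent.P214.EX Vale.Agent.P214.R2 Vale.Agent.P214.CAPF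

/-- **The steep growth lemma**, unit cylinder, start scale `2 R`. -/
theorem steep_unit (E : Type*) [NormedAddCommGroup E] [InnerProductSpace ℝ E]
    [FiniteDimensional ℝ E] [MeasurableSpace E] [BorelSpace E] (m Q : ℕ) (hm : 1 ≤ m) {p B₀ : ℝ}
    (hp : 0 < p) (hB0 : 0 ≤ B₀) :
    ∃ η₁ ε C : ℝ, 0 < η₁ ∧ 0 < ε ∧ 1 ≤ C ∧ ∀ η₀ : ℝ, 0 < η₀ → ∀ Φ : ℝ → ℝ, ∃ S : ℝ, 1 ≤ S ∧
    ∀ (T : Submodule ℝ E) (h : ℝ) (ν : Measure E) (P : E → E →L[ℝ] E),
      IntCyl m Q T 0 2 h ε ν P → exc T ν P 0 2 ≤ ε → ∀ x ∈ T, ‖x‖ ≤ 1 → ∀ R : ℝ, 0 < R →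
      80 * (R * Real.exp S) ≤ 1 →
      (∀ t, R ≤ t → t ≤ 1 / 8 → exc T ν P x t ≤ η₁ * t ^ m) →
      η₀ * R ^ m ≤ exc T ν P x R →
      (∫ u in (0:ℝ)..S, NG.Yp (aU m T x TH.win ν (Q * cK m T TH.win) (2 * R))
        (gU m T x TH.win P ν (2 * R)) u) ≤ B₀ →
      ∃ κ o : ℝ, 1 ≤ κ ∧ κ ≤ S ∧ 2 * R ≤ o ∧ o ≤ κ * (2 * R) ∧
        o * Real.exp (Φ κ) ≤ 2 * R * Real.exp S ∧
        ∀ u, 0 ≤ u → u ≤ Φ κ → (1 + u / κ) ^ p * GEN.AA m Q T ν P x (2 * R)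
          ≤ C * GEN.AA m Q T ν P x (o * Real.exp u) := by
  obtain ⟨δ, CM, hδ, hCM, Hdown⟩ := near_down E m Q hm (η := 1) one_pos
  obtain ⟨Ck, hCk0, hCk⟩ := NGP.kernW.pk.exists_bound
  obtain ⟨η₁, C, hη₁, hC1, H⟩ := steep E m NGP.kernW NGP.kk_zero (Ck := Ck)
    (fun s hs => (le_abs_self _).trans (hCk s hs).1) (M := CM) hp hB0 hCM.le
  refine ⟨min η₁ δ, δ, C, lt_min hη₁ hδ, hδ, hC1, ?_⟩
  intro η₀ hη₀ Φ
  obtain ⟨S, hS1, HS⟩ := H (TH.win (1 / 4) * (1 / 2) ^ m * η₀) (by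
    have := NGP.one_le_win_of (s := 1 / 4) le_rfl
    positivity) Φ
  refine ⟨S, hS1, ?_⟩
  intro T h ν P hI hexc0 x hx hx1 R hR hRS hexc hlow hbud
  have hC := hI.cyl
  haveI := hC.fin
  have hS0 : 0 ≤ S := zero_le_one.trans hS1
  have hR2 : 0 < 2 * R := by positivity
  have hexpS := Real.one_le_exp hS0
  have hRle : R ≤ R * Real.exp S := le_mul_of_one_le_right hR.le hexpS
  have e1 : 2 * R * Real.exp S = 2 * (R * Real.exp S) := by ring
  have key := HS Q T 0 2 h δ ν P (Q * cK m T TH.win) hI x hx (2 * R) hR2 (by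
    rw [sub_zero, e1]; linarith) (by
    intro t ht1 ht2
    have ht0 : 0 < t := hR2.trans_le ht1
    rw [← TCH.exc_eq hx ht0]
    refine (hexc t (by linarith) (by rw [e1] at ht2; linarith)).trans ?_
    have := min_le_left η₁ δ
    gcongr) (by
    intro t ht1 ht2
    have ht0 : 0 < t := hR2.trans_le ht1
    rw [TCH.bset_eq hx ht0]
    rw [e1] at ht2
    obtain ⟨-, h2⟩ := Hdown T 0 2 h ν P hI (hexc0.trans (le_mul_of_one_le_right hδ.le
      (one_le_pow₀ (by norm_num)))) x hx (by rw [sub_zero]; linarith) t ht0 (by linarith)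
      (fun s' h3 h4 => (hexc s' (by linarith) (by linarith)).trans (by
        have := min_le_right η₁ δ
        have : 0 < s' := ht0.trans_le h3
        gcongr))
    exact h2 t (by linarith) (by linarith)) (by
    have h14 : 0 < TH.win (1 / 4) := by
      have := NGP.one_le_win_of (s := 1 / 4) le_rfl
      linarith
    have h3 := GEN.le_tiltK (x := x) hC NGP.kernW h14 hx hR2
    have e2 : 2 * R / 2 = R := by ring
    rw [e2] at h3
    refine le_trans ?_ h3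
    have e3 : (2 * R) ^ (2 - (m : ℤ)) = (2 * R) ^ 2 * ((2 * R) ^ m)⁻¹ := by
      rw [sub_eq_add_neg, zpow_add₀ hR2.ne', zpow_neg, zpow_natCast]; norm_cast
    have e4 : TH.win (1 / 4) * (1 / 2) ^ m * η₀ * (2 * R) ^ 2
        = TH.win (1 / 4) * ((2 * R) ^ (2 - (m : ℤ)) * (η₀ * R ^ m)) := by
      rw [e3, mul_pow 2 R m, one_div_pow]
      field_simp
    rw [e4]
    have h5 : 0 ≤ (2 * R) ^ (2 - (m : ℤ)) := zpow_nonneg hR2.le _
    gcongr) hbud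
  obtain ⟨κ, o, h1, h2, h3, h4, h5, h6⟩ := key
  exact ⟨κ, o, h1, h2, h3, h4, h5, h6⟩

end Vale.Agent.P214.SG
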