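import Vale.Agent.P214.QP.IntV

/-!
# P214, block SG (1): one finite fibre for all larger scales

If the excess over all base balls `B_t(x)`, `R ≤ t ≤ 5 L`, is small, then there is a finite set `S`
of heights (the fibre of the support over a good base point near `x`) such that for EVERY
`R ≤ t ≤ L` the support over `B_t(x)` is within `4 ε t` of `S`.
-/

open Set Filter Topology MeasureTheory Metric
open scoped RealInnerProductSpace

set_option linter.all false

namespace Vale.Agent.P214.SG

open Vale.Agent.P214.FV Vale.Agent.P214.ODE Vale.Agent.P214.QP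

variable {E : Type*} [NormedAddCommGroup E] [InnerProductSpace ℝ E] [FiniteDimensional ℝ E]
  [MeasurableSpace E] [BorelSpace E]
variable {m Q : ℕ} {T : Submodule ℝ E} {z x : E} {R₀ R L h δ : ℝ} {ν : Measure E}
  {P : E → E →L[ℝ] E}

/-- the constant of the cardinality bound -/
noncomputable def Cc (m : ℕ) : ℝ := Cgc m * 40 ^ m * 2 ^ m / cg m

lemma Cc_pos (m : ℕ) : 0 < Cc m := by
  have := Cgc_pos m
  have := cg_pos m
  unfold Cc; positivity

/-- smallness of the cone bound -/
noncomputable def dC (m : ℕ) (ε : ℝ) : ℝ := cg m * ε ^ (m + 3) / (64 ^ m * 40000)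

/-- smallness of the excess -/
noncomputable def eC (m : ℕ) (ε : ℝ) : ℝ := dC m ε / (Cgc m * 40 ^ m)

lemma dC_pos (m : ℕ) {ε : ℝ} (hε : 0 < ε) : 0 < dC m ε := by
  have := cg_pos m
  unfold dC; positivity

lemma eC_pos (m : ℕ) {ε : ℝ} (hε : 0 < ε) : 0 < eC m ε := by
  have := dC_pos m hε
  have := Cgc_pos m
  unfold eC; positivity

/-- **One finite fibre for all larger scales.** -/
theorem exists_fibre (hI : Skel.IntCyl m Q T z R₀ h δ ν P) {ε : ℝ} (hε : 0 < ε) (hε1 : ε ≤ 1)
    (hx : x ∈ T) (hR : 0 < R) (hRL : R ≤ L) (hL : ‖x - z‖ + 6 * L ≤ R₀)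
    (hexc : ∀ t, R ≤ t → t ≤ 5 * L → Dex T P ν x t ≤ eC m ε * t ^ m) {A : ℝ}
    (hA : ν.real (bset T x R) ≤ A * R ^ m) :
    ∃ S : Finset E, (∀ c ∈ S, c ∈ Tᗮ) ∧ (S.card : ℝ) ≤ Cc m * A ∧
      ∀ t, R ≤ t → t ≤ L → ∀ y ∈ ν.support, ‖bx T x y‖ ≤ t → ∃ c ∈ S, ‖co T y - c‖ ≤ 4 * ε * t := by
  have hC := hI.cyl
  haveI := hC.fin
  have hcg := cg_pos m
  have hCg := Cgc_pos m
  have hCg1 := one_le_Cgc m
  have hη := eC_pos m hε
  have hδ := dC_pos m hε
  have hxx : T.starProjection x = x := Submodule.starProjection_eq_self_iff.2 hx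
  have h40 : (1:ℝ) ≤ 40 ^ m := one_le_pow₀ (by norm_num)
  have heq : Cgc m * 40 ^ m * eC m ε = dC m ε := by unfold eC; field_simp
  set t₀ : ℝ := R / 40 with ht₀
  have ht0 : 0 < t₀ := by positivity
  have hR40 : 40 * t₀ = R := by rw [ht₀]; ring
  -- the good point
  have hG : BallIn T (ball z R₀) x (50 * t₀) := by
    intro y hy hy2
    rw [hxx] at hy2
    rw [mem_ball, dist_eq_norm]
    calc ‖y - z‖ = ‖(y - x) + (x - z)‖ := by congr 1; abel
      _ ≤ 50 * t₀ + ‖x - z‖ := (norm_add_le _ _).trans (by gcongr)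
      _ < R₀ := by linarith
  obtain ⟨x0, hx0, hg⟩ := exists_goodPoint (δ := dC m ε) hC hCg1 (goodCenters hC.dimT) hx ht0 hG
    (c0 := cg m) (by
      intro y hy hyt s hs hst
      refine low_intCyl hI hy hs ?_
      rw [bx_of_mem hx] at hyt
      calc ‖T.starProjection y - z‖ + s = ‖(T.starProjection y - x) + (x - z)‖ + s := by
            congr 2; abel
        _ ≤ 9 * t₀ + ‖x - z‖ + 8 * t₀ := by
            gcongr
            exact (norm_add_le _ _).trans (by gcongr)
        _ < R₀ := by linarith)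
    (by
      rw [hR40]
      have h1 := hexc R le_rfl (by linarith)
      calc Cgc m * Dex T P ν x R ≤ Cgc m * (eC m ε * R ^ m) := by gcongr
        _ = (Cgc m * 40 ^ m * eC m ε) * t₀ ^ m := by rw [← hR40, mul_pow]; ring
        _ = _ := by rw [heq])
  have hnear := hg.near
  obtain ⟨S, hS1, hS2, -, -⟩ := hg.qpoincare hC hCg1 hcg hε hε1 le_rfl ht0 (A := A * 40 ^ m) (by
    rw [hR40]
    refine hA.trans (le_of_eq ?_)
    rw [← hR40, mul_pow]; ring)
  -- the good base with the big radius
  set tb : ℝ := 41 / 40 * L with htb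
  have htb0 : 0 < tb := by have := hR.trans_le hRL; positivity
  have hxx0 : T.starProjection x0 = x0 := Submodule.starProjection_eq_self_iff.2 hx0
  have hgb : GoodBase m T (ball z R₀) ν P (cg m) (dC m ε) tb x0 := by
    refine ⟨hx0, ?_, ?_, ?_⟩
    · intro y hy hy2
      rw [hxx0] at hy2
      rw [mem_ball, dist_eq_norm]
      calc ‖y - z‖ = ‖(y - x0) + ((x0 - x) + (x - z))‖ := by congr 1; abel
        _ ≤ 5 * tb + (t₀ + ‖x - z‖) := (norm_add_le _ _).trans
            (add_le_add hy2 ((norm_add_le _ _).trans (add_le_add hnear.le le_rfl)))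
        _ < R₀ := by rw [htb]; linarith
    · intro s hs hst
      have hsm : 0 < s ^ m := by positivity
      rcases le_total s (32 * t₀) with h1 | h1
      · have h2 := hexc R le_rfl (by linarith)
        refine (hg.exc s hs h1).trans ?_
        rw [hR40]
        calc Cgc m * (s / t₀) ^ m * Dex T P ν x R
            ≤ Cgc m * (s / t₀) ^ m * (eC m ε * R ^ m) := by gcongr
          _ = (Cgc m * 40 ^ m * eC m ε) * s ^ m := by
              rw [div_pow, ← hR40, mul_pow]; field_simp
          _ = _ := by rw [heq]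
      · have e1 : Dex T P ν x0 s ≤ Dex T P ν x (max R (s + t₀)) := by
          refine Dex_mono_set hC (bset_subset hs.le ?_)
          rw [hxx, hxx0]
          have := le_max_right R (s + t₀)
          linarith
        have e2 := hexc (max R (s + t₀)) (le_max_left _ _) (by
          refine max_le (by linarith) ?_
          rw [htb] at hst
          linarith)
        have e3 : max R (s + t₀) ≤ 2 * s := max_le (by linarith) (by linarith)
        have e4 : 0 < max R (s + t₀) := lt_max_of_lt_left hR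
        calc Dex T P ν x0 s ≤ eC m ε * max R (s + t₀) ^ m := e1.trans e2
          _ ≤ eC m ε * (2 * s) ^ m := by gcongr
          _ = (1 * 2 ^ m * eC m ε) * s ^ m := by rw [mul_pow]; ring
          _ ≤ (Cgc m * 40 ^ m * eC m ε) * s ^ m := by
              gcongr
              norm_num
          _ = _ := by rw [heq]
    · intro y hy hyt s hs hst
      refine low_intCyl hI hy hs ?_
      rw [bx_of_mem hx0] at hyt
      calc ‖T.starProjection y - z‖ + s
          = ‖(T.starProjection y - x0) + ((x0 - x) + (x - z))‖ + s := by congr 2; abel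
        _ ≤ tb + (t₀ + ‖x - z‖) + tb := by
            gcongr
            exact (norm_add_le _ _).trans
              (add_le_add hyt ((norm_add_le _ _).trans (add_le_add hnear.le le_rfl)))
        _ < R₀ := by rw [htb]; linarith
  refine ⟨S, fun c hc => ((hS1 c).1 hc).1, ?_, ?_⟩
  · refine hS2.trans (le_of_eq ?_)
    unfold Cc; ring
  · intro t hRt htL y hy hyt
    have h1 : ‖bx T x0 y‖ ≤ t + t₀ := by
      rw [bx_of_mem hx0]
      rw [bx_of_mem hx] at hyt
      calc ‖T.starProjection y - x0‖ = ‖(T.starProjection y - x) + (x - x0)‖ := by congr 1; abel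
        _ ≤ t + t₀ := (norm_add_le _ _).trans (add_le_add hyt (by
            rw [norm_sub_rev]; exact hnear.le))
    obtain ⟨c, hc, h2⟩ := hgb.cone hC hcg hε hε1 le_rfl htb0 hy (by rw [htb]; linarith)
    refine ⟨c, (hS1 c).2 hc, h2.trans ?_⟩
    have h3 : ‖bx T x0 y‖ ≤ 2 * t := by linarith
    calc 2 * ε * ‖bx T x0 y‖ ≤ 2 * ε * (2 * t) := by gcongr
      _ = 4 * ε * t := by ring

end Vale.Agent.P214.SG
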