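import Vale.Agent.P214.NG.Ode

/-!
# P214, block SG (1): polynomial growth along a path without gap energy
-/

open Set Filter Topology MeasureTheory

set_option linter.all false

namespace Vale.Agent.P214.SG

open Vale.Agent.P214

/-- `y' ≥ c e^{-λ y}`, `y α = 0` gives `e^{λ y} ≥ 1 + λ c (u - α)` -/
lemma exp_growth {α β c lam : ℝ} (hαβ : α ≤ β) (hc : 0 ≤ c) (hlam : 0 ≤ lam) {n : ℝ → ℝ}
    (hn : ContinuousOn n (Icc α β))
    (hlow : ∀ u ∈ Icc α β, c * Real.exp (-(lam * ∫ v in α..u, n v)) ≤ n u) {u : ℝ}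
    (hu : u ∈ Icc α β) : 1 + lam * c * (u - α) ≤ Real.exp (lam * ∫ v in α..u, n v) := by
  have hcN : ContinuousOn (fun u => ∫ v in α..u, n v) (Icc α β) := NG.continuousOn_integral hαβ hn
  have h1 := NG.gr1 hαβ (f := fun u => -Real.exp (lam * ∫ v in α..u, n v))
    (f' := fun u => -(Real.exp (lam * ∫ v in α..u, n v) * (lam * n u)))
    (R := fun _ => -(lam * c))
    ((Real.continuous_exp.comp_continuousOn (continuousOn_const.mul hcN)).neg) (by
      intro x hx r hr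
      have hd : HasDerivWithinAt (fun u => -Real.exp (lam * ∫ v in α..u, n v))
          (-(Real.exp (lam * ∫ v in α..x, n v) * (lam * n x))) (Ici x) x :=
        (((NG.hasDerivWithinAt_integral hn hx).const_mul lam).exp).neg
      exact hd.liminf_right_slope_le hr) continuousOn_const (by
      intro x hx
      have hxI : x ∈ Icc α β := ⟨hx.1, hx.2.le⟩
      have h2 := hlow x hxI
      have h3 : 0 < Real.exp (lam * ∫ v in α..x, n v) := Real.exp_pos _
      have h4 : c ≤ Real.exp (lam * ∫ v in α..x, n v) * n x := by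
        calc c = Real.exp (lam * ∫ v in α..x, n v)
              * (c * Real.exp (-(lam * ∫ v in α..x, n v))) := by
              rw [Real.exp_neg]; field_simp
          _ ≤ _ := mul_le_mul_of_nonneg_left h2 h3.le
      have h5 := mul_le_mul_of_nonneg_left h4 hlam
      show -(Real.exp (lam * ∫ v in α..x, n v) * (lam * n x)) ≤ -(lam * c)
      nlinarith) u hu
  rw [intervalIntegral.integral_same, mul_zero, Real.exp_zero, intervalIntegral.integral_const,
    smul_eq_mul] at h1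
  nlinarith

/-- **Polynomial growth along a path without gap energy.** -/
theorem growth {p B₀ M C₁ : ℝ} (hp : 0 < p) (hB0 : 0 ≤ B₀) (hM : 0 ≤ M) (hC₁ : 0 ≤ C₁) :
    ∃ ε₀ C : ℝ, 0 < ε₀ ∧ ε₀ ≤ 1 ∧ 1 ≤ C ∧
      ∀ {α β ε κ : ℝ} {a g b g₁ H H₁ gS : ℝ → ℝ}, NG.EPath α β M a g b g₁ →
        NG.HPath α β C₁ ε g b g₁ H H₁ gS → (∀ u ∈ Icc α β, gS u = g u) → α ≤ β → 0 ≤ ε →
        ε ≤ ε₀ → (∫ u in α..β, NG.Yp a g u) ≤ B₀ → 1 ≤ κ → H α ≤ κ * NG.Am a g α →
        ∀ u ∈ Icc α β, (1 + (u - α) / κ) ^ p * NG.Am a g α ≤ C * NG.Am a g u := by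
  set ε₀ : ℝ := min 1 (1 / (32 * p)) with hε₀
  have hε₀p : 0 < ε₀ := lt_min one_pos (by positivity)
  have hε₀1 : ε₀ ≤ 1 := min_le_left _ _
  have hε₀2 : 32 * p * ε₀ ≤ 1 := by
    have h := min_le_right 1 (1 / (32 * p))
    rw [← hε₀, le_div_iff₀ (by positivity)] at h
    linarith
  have hC2 : 0 ≤ NG.C2 M C₁ := by unfold NG.C2; positivity
  set δ : ℝ := min 1 (2 * ε₀ * Real.exp (-(NG.C2 M C₁ * B₀))) with hδ
  have hδp : 0 < δ := lt_min one_pos (by positivity)
  have hδ1 : δ ≤ 1 := min_le_left _ _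
  have hCB : 0 ≤ NG.C2 M C₁ * B₀ := by positivity
  have hδC : 1 ≤ (δ⁻¹) ^ p := Real.one_le_rpow ((one_le_inv₀ hδp).2 hδ1) hp.le
  have hEC : 1 ≤ Real.exp (NG.C2 M C₁ * B₀) := Real.one_le_exp hCB
  refine ⟨ε₀, (δ⁻¹) ^ p * Real.exp (NG.C2 M C₁ * B₀), hε₀p, hε₀1, ?_, ?_⟩
  · nlinarith
  intro α β ε κ a g b g₁ H H₁ gS he hh hgap hαβ hε0 hε1 hY hκ hHα u hu
  have hαI : α ∈ Icc α β := ⟨le_rfl, hαβ⟩
  have hAα := he.Apos hαI
  have hHα0 := hh.Hpos α hαI
  have hκ0 : 0 < κ := by linarith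
  -- integrals of Y
  have hYint : ∀ x y, x ∈ Icc α β → y ∈ Icc α β → x ≤ y →
      IntervalIntegrable (NG.Yp a g) volume x y := by
    intro x y hx hy hxy
    apply ContinuousOn.intervalIntegrable
    rw [uIcc_of_le hxy]
    exact he.cont_Y.mono (Icc_subset_Icc hx.1 hy.2)
  have hYu : ∀ v ∈ Icc α β, (∫ w in α..v, NG.Yp a g w) ≤ B₀ := by
    intro v hv
    have h1 := intervalIntegral.integral_add_adjacent_intervals (hYint α v hαI hv hv.1)
      (hYint v β hv ⟨hαβ, le_rfl⟩ hv.2)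
    have h2 : 0 ≤ ∫ w in v..β, NG.Yp a g w :=
      intervalIntegral.integral_nonneg hv.2 fun w _ => NG.Yr_nonneg _ _
    linarith
  -- continuity
  have hcH : ContinuousOn H (Icc α β) :=
    fun u hu => (hh.dH u hu).continuousAt.continuousWithinAt
  have hcn : ContinuousOn (NG.nn a g H) (Icc α β) := by
    unfold NG.nn
    exact (he.cont_A.div hcH fun u hu => (hh.Hpos u hu).ne').inf continuousOn_const
  have hnn0 : ∀ x ∈ Icc α β, 0 ≤ NG.nn a g H x := fun x hx =>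
    le_min (div_nonneg (he.Apos hx).le (hh.Hpos x hx).le) zero_le_one
  have hN0 : ∀ v ∈ Icc α β, 0 ≤ ∫ w in α..v, NG.nn a g H w := fun v hv =>
    intervalIntegral.integral_nonneg hv.1 fun w hw => hnn0 w ⟨hw.1, hw.2.trans hv.2⟩
  have hgap0 : ∀ v ∈ Icc α β, g v - gS v ≤ 0 * NG.Am a g v := by
    intro v hv
    rw [hgap v hv]; simp
  -- the initial logarithm
  have hinit : max (Real.log 2) (Real.log (H α) - Real.log (NG.Am a g α))
      ≤ Real.log 2 + Real.log κ := by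
    have hl2 : 0 ≤ Real.log 2 := Real.log_nonneg one_le_two
    have hlκ : 0 ≤ Real.log κ := Real.log_nonneg hκ
    refine max_le (by linarith) ?_
    have h1 := Real.log_le_log hHα0 hHα
    rw [Real.log_mul hκ0.ne' hAα.ne'] at h1
    linarith
  -- lower bound of nn
  set c : ℝ := Real.exp (-(NG.C2 M C₁ * B₀)) / (2 * κ) with hc
  have hc0 : 0 < c := by positivity
  have hlow : ∀ v ∈ Icc α β,
      c * Real.exp (-(4 * ε₀ * ∫ w in α..v, NG.nn a g H w)) ≤ NG.nn a g H v := by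
    intro v hv
    have h1 := he.n_step hh hαβ hM hC₁ le_rfl (by norm_num : (0:ℝ) ≤ 1 / 4) hε0
      (hε1.trans hε₀1) hgap0 le_rfl hv
    have hAv := he.Apos hv
    have hHv := hh.Hpos v hv
    have hN := hN0 v hv
    have h2 : NG.C2 M C₁ * (∫ w in α..v, NG.Yp a g w) ≤ NG.C2 M C₁ * B₀ :=
      mul_le_mul_of_nonneg_left (hYu v hv) hC2
    have h3 : (2 * 0 + 4 * ε) * (∫ w in α..v, NG.nn a g H w)
        ≤ 4 * ε₀ * ∫ w in α..v, NG.nn a g H w := by
      have := mul_le_mul_of_nonneg_right hε1 hN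
      linarith
    have hce : c * Real.exp (-(4 * ε₀ * ∫ w in α..v, NG.nn a g H w))
        = Real.exp (-(Real.log 2 + Real.log κ + NG.C2 M C₁ * B₀
          + 4 * ε₀ * ∫ w in α..v, NG.nn a g H w)) := by
      rw [show -(Real.log 2 + Real.log κ + NG.C2 M C₁ * B₀
          + 4 * ε₀ * ∫ w in α..v, NG.nn a g H w)
          = -Real.log 2 + (-Real.log κ + (-(NG.C2 M C₁ * B₀)
            + -(4 * ε₀ * ∫ w in α..v, NG.nn a g H w))) by ring,
        Real.exp_add, Real.exp_add, Real.exp_add, Real.exp_neg (Real.log 2),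
        Real.exp_log two_pos, Real.exp_neg (Real.log κ), Real.exp_log hκ0, hc]
      field_simp
    rw [hce]
    unfold NG.nn
    refine le_min ?_ ?_
    · rw [← Real.exp_log (div_pos hAv hHv), Real.log_div hAv.ne' hHv.ne']
      apply Real.exp_le_exp.2
      have h5 : (∫ w in α..v, NG.nn a g H w)
          = ∫ w in α..v, min (NG.Am a g w / H w) 1 := rfl
      rw [← h5]
      linarith
    · rw [Real.exp_le_one_iff]
      have h5 : (∫ w in α..v, NG.nn a g H w)
          = ∫ w in α..v, min (NG.Am a g w / H w) 1 := rfl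
      rw [← h5]
      have hl2 : 0 ≤ Real.log 2 := Real.log_nonneg one_le_two
      have hlκ : 0 ≤ Real.log κ := Real.log_nonneg hκ
      have h6 : 0 ≤ 4 * ε₀ * ∫ w in α..v, NG.nn a g H w := by positivity
      linarith
  -- exponential growth of the integral
  have hexp := exp_growth hαβ hc0.le (by positivity : 0 ≤ 4 * ε₀) hcn hlow hu
  -- growth of A on [α, u]
  have heu := he.mono le_rfl hu.2
  have hsub : ∀ v ∈ Icc α u, v ∈ Icc α β := fun v hv => ⟨hv.1, hv.2.trans hu.2⟩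
  have hhu : NG.HPath α u C₁ ε g b g₁ H H₁ gS :=
    ⟨fun v hv => hh.dH v (hsub v hv), fun v hv => hh.Hpos v (hsub v hv),
      fun v hv => hh.err1 v (hsub v hv), fun v hv => hh.err2 v (hsub v hv),
      fun v hv => hh.cs v (hsub v hv), fun v hv => hh.le v (hsub v hv)⟩
  have hgr := heu.A_growth hhu hu.1 hM hC₁ (by norm_num : (0:ℝ) ≤ 1 / 4)
    (fun v hv => hgap0 v (hsub v hv)) (hcH.mono (Icc_subset_Icc_right hu.2))
  have hAu := he.Apos hu
  set N : ℝ := ∫ w in α..u, NG.nn a g H w with hN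
  have hY2 : NG.C2 M C₁ * (∫ w in α..u, NG.Yp a g w) ≤ NG.C2 M C₁ * B₀ :=
    mul_le_mul_of_nonneg_left (hYu u hu) hC2
  -- A u ≥ A α exp (N / 8 - C₂ B₀)
  have hA1 : Real.exp (N / 8) * NG.Am a g α
      ≤ Real.exp (NG.C2 M C₁ * B₀) * NG.Am a g u := by
    rw [← Real.exp_log hAα, ← Real.exp_log hAu, ← Real.exp_add, ← Real.exp_add]
    apply Real.exp_le_exp.2
    linarith
  -- polynomial lower bound of exp (N / 8)
  have hx0 : 0 ≤ (u - α) / κ := div_nonneg (by linarith [hu.1]) hκ0.le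
  have hδx : δ * (1 + (u - α) / κ) ≤ Real.exp (4 * ε₀ * N) := by
    refine le_trans ?_ hexp
    have h1 : 4 * ε₀ * c * (u - α) = (2 * ε₀ * Real.exp (-(NG.C2 M C₁ * B₀))) * ((u - α) / κ) := by
      rw [hc]; field_simp; ring
    rw [h1, mul_add, mul_one]
    have h2 : δ * ((u - α) / κ) ≤ (2 * ε₀ * Real.exp (-(NG.C2 M C₁ * B₀))) * ((u - α) / κ) :=
      mul_le_mul_of_nonneg_right (min_le_right _ _) hx0
    linarith
  have hNn : 0 ≤ N := hN0 u hu
  have hpow : (1 + (u - α) / κ) ^ p ≤ (δ⁻¹) ^ p * Real.exp (N / 8) := by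
    have h1 : 1 + (u - α) / κ ≤ δ⁻¹ * Real.exp (4 * ε₀ * N) := by
      rw [← div_le_iff₀' (by positivity : (0:ℝ) < δ⁻¹), div_inv_eq_mul, mul_comm]
      exact hδx
    calc (1 + (u - α) / κ) ^ p ≤ (δ⁻¹ * Real.exp (4 * ε₀ * N)) ^ p :=
          Real.rpow_le_rpow (by positivity) h1 hp.le
      _ = (δ⁻¹) ^ p * Real.exp (4 * ε₀ * N * p) := by
          rw [Real.mul_rpow (by positivity) (Real.exp_pos _).le, ← Real.exp_mul]
      _ ≤ (δ⁻¹) ^ p * Real.exp (N / 8) := by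
          have h2 : 4 * ε₀ * N * p ≤ N / 8 := by nlinarith
          have h3 := Real.exp_le_exp.2 h2
          exact mul_le_mul_of_nonneg_left h3 (by positivity)
  calc (1 + (u - α) / κ) ^ p * NG.Am a g α
      ≤ ((δ⁻¹) ^ p * Real.exp (N / 8)) * NG.Am a g α := mul_le_mul_of_nonneg_right hpow hAα.le
    _ = (δ⁻¹) ^ p * (Real.exp (N / 8) * NG.Am a g α) := by ring
    _ ≤ (δ⁻¹) ^ p * (Real.exp (NG.C2 M C₁ * B₀) * NG.Am a g u) :=
        mul_le_mul_of_nonneg_left hA1 (by positivity)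
    _ = _ := by ring

end Vale.Agent.P214.SG
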