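import Vale.Agent.P214.NG.Sep

/-!
# P214, block SG (3): the ladder
-/

open Set Filter Topology MeasureTheory

set_option linter.all false

namespace Vale.Agent.P214.SG

/-- the sequence of thresholds `y 0 = 1`, `y (r+1) = 30 e^{ψ (y r)} y r` -/
noncomputable def lad (ψ : ℝ → ℝ) : ℕ → ℝ
  | 0 => 1
  | r + 1 => 30 * Real.exp (ψ (lad ψ r)) * lad ψ r

lemma one_le_lad {ψ : ℝ → ℝ} (hψ : ∀ y, 0 ≤ ψ y) : ∀ r, 1 ≤ lad ψ r
  | 0 => le_rfl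
  | r + 1 => by
    have h1 := one_le_lad hψ r
    have h2 := Real.one_le_exp (hψ (lad ψ r))
    show 1 ≤ 30 * Real.exp (ψ (lad ψ r)) * lad ψ r
    nlinarith

lemma lad_le_succ {ψ : ℝ → ℝ} (hψ : ∀ y, 0 ≤ ψ y) (r : ℕ) : lad ψ r ≤ lad ψ (r + 1) := by
  have h1 := one_le_lad hψ r
  have h2 := Real.one_le_exp (hψ (lad ψ r))
  show lad ψ r ≤ 30 * Real.exp (ψ (lad ψ r)) * lad ψ r
  nlinarith

lemma lad_mono {ψ : ℝ → ℝ} (hψ : ∀ y, 0 ≤ ψ y) : Monotone (lad ψ) :=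
  monotone_nat_of_le_succ (lad_le_succ hψ)

variable {X : Type*} [MetricSpace X]

/-- **The ladder**: a separated subset at one of finitely many prescribed levels. -/
theorem ladder {S : Finset X} {N : ℕ} (hne : S.Nonempty) (hN : S.card ≤ N) {d : ℕ → ℝ}
    (hd : ∀ r, 0 ≤ d r) (hdm : ∀ r, d r ≤ d (r + 1)) :
    ∃ r < N, ∃ S₀ ⊆ S, S₀.Nonempty ∧ NG.Sep S₀ (d (r + 1) ^ 2) ∧ NG.Cov S₀ S (d r ^ 2) := by
  have hsq : ∀ r, d r ^ 2 ≤ d (r + 1) ^ 2 := fun r => by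
    have := hd r
    have := hdm r
    gcongr
  obtain ⟨r, hr, h1⟩ := NG.exists_level (N := fun r => NG.sepNum S (d r ^ 2)) (M₀ := N)
    (fun r _ => NG.sepNum_anti (hsq r)) (NG.one_le_sepNum hne _) ((NG.sepNum_le_card _).trans hN)
  exact ⟨r, hr, NG.exists_stage_set hne (sq_nonneg _) (hsq r) h1⟩

end Vale.Agent.P214.SG
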