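import Vale.Agent.P214.CAPF.Data
import Vale.Agent.P214.NG.Stage

/-!
# P214, block SG (2): a stage without gap energy

`S` finite set of heights with mutual distances `> D`; over `B_t(x)`, `t ∈ [s e^α, s e^β]`, the
whole support is within `ρ t ≤ D / 6` of `S`.  Then the capped height function of `S` sees all the
tilt (`g_S = g`), it is small (`≤ ρ² t² / 2`), and `NG.HPath` holds with the constant error
`ε = 4 m ρ²`.
-/

open Set Filter Topology MeasureTheory Metric
open scoped RealInnerProductSpace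

set_option linter.all false

namespace Vale.Agent.P214.SG

open Vale.Agent.P214.FV Vale.Agent.P214.ODE Vale.Agent.P214.NGP Vale.Agent.P214.CAPF

variable {E : Type*} [NormedAddCommGroup E] [InnerProductSpace ℝ E] [FiniteDimensional ℝ E]
  [MeasurableSpace E] [BorelSpace E]
variable {m : ℕ} {T : Submodule ℝ E} {G : Set E} {h : ℝ} {ν : Measure E} {P : E → E →L[ℝ] E}
  {x : E} {k k' K : ℝ → ℝ} {S : Finset E}

/-- the support over `B_t(x)` is within `ρ t` of `S` -/
def Near (T : Submodule ℝ E) (ν : Measure E) (x : E) (S : Finset E) (ρ t : ℝ) : Prop :=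
  ∀ y ∈ ν.support, ‖bx T x y‖ ≤ t → ∃ c ∈ S, ‖co T y - c‖ ≤ ρ * t

lemma Near.ae {ρ t : ℝ} (h : Near T ν x S ρ t) (ht : 0 ≤ t) :
    ∀ᵐ y ∂ν, bsq T x y < t ^ 2 → ∃ c ∈ S, ‖hgt T c y‖ ≤ ρ * t := by
  filter_upwards [Measure.support_mem_ae (μ := ν)] with y hy hlt
  refine h y hy ?_
  unfold bsq at hlt
  exact (lt_of_pow_lt_pow_left₀ 2 ht hlt).le

/-- `2 H^θ_F ≤ Ck S M` for `0 ≤ F ≤ S/2` on the ball -/
lemma hgtTh_le (hC : CylStat m T G h ν P) (hk : Kern k k' K) {Ck : ℝ}
    (hCk : ∀ s, 0 ≤ s → k s ≤ Ck) {F : E → ℝ} (hF0 : ∀ y, 0 ≤ F y) {t B M : ℝ} (ht : 0 < t)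
    (hB0 : 0 ≤ B) (hB : ∀ᵐ y ∂ν, bsq T x y < t ^ 2 → F y ≤ B / 2)
    (hM : ν.real (QP.bset T x t) ≤ M * t ^ m) :
    2 * hgtTh m T x k F P ν t ≤ Ck * B * M := by
  haveI := hC.fin
  have hCk0 : 0 ≤ Ck := (hk.nonneg 0).trans (hCk 0 le_rfl)
  have hpl := CylStat.plane hC
  unfold hgtTh
  have h1 : ∫ y, k (bsq T x y / t ^ 2) * (F y * theta T P x y) ∂ν
      ≤ ∫ y, (QP.bset T x t).indicator (fun _ => Ck * (B / 2)) y ∂ν := by
    refine integral_mono_of_nonneg ?_ ?_ ?_
    · filter_upwards [hpl.theta_mem (T := T) (z := x)] with y hy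
      exact mul_nonneg (hk.nonneg _) (mul_nonneg (hF0 y) hy.1)
    · exact (integrable_const _).indicator (QP.measurableSet_bset T x t)
    · filter_upwards [hB, hpl.theta_mem (T := T) (z := x)] with y hy hth
      by_cases hlt : bsq T x y < t ^ 2
      · have hmem : y ∈ QP.bset T x t := hlt
        rw [indicator_of_mem hmem]
        have h2 := hy hlt
        have h3 : 0 ≤ bsq T x y / t ^ 2 := div_nonneg (bsq_nonneg T x y) (by positivity)
        have h4 : F y * theta T P x y ≤ B / 2 := by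
          calc F y * theta T P x y ≤ F y * 1 := mul_le_mul_of_nonneg_left hth.2 (hF0 y)
            _ ≤ B / 2 := by linarith
        have h7 : 0 ≤ F y * theta T P x y := mul_nonneg (hF0 y) hth.1
        exact mul_le_mul (hCk _ h3) h4 h7 hCk0
      · have hnm : y ∉ QP.bset T x t := hlt
        rw [indicator_of_notMem hnm]
        have h3 : k (bsq T x y / t ^ 2) = 0 := by
          refine hk.pk.zero _ ?_
          rw [one_le_div (by positivity)]
          exact not_lt.1 hlt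
        rw [h3, zero_mul]
  rw [integral_indicator_const _ (QP.measurableSet_bset T x t), smul_eq_mul] at h1
  have h8 : t ^ (-(m : ℤ)) * (ν.real (QP.bset T x t) * (Ck * (B / 2)))
      ≤ t ^ (-(m : ℤ)) * ((M * t ^ m) * (Ck * (B / 2))) := by
    have : 0 ≤ Ck * (B / 2) := by positivity
    have h9 : 0 ≤ t ^ (-(m : ℤ)) := zpow_nonneg ht.le _
    gcongr
  have h10 : t ^ (-(m : ℤ)) * ((M * t ^ m) * (Ck * (B / 2))) = M * (Ck * (B / 2)) := by
    have : t ^ (-(m : ℤ)) * t ^ m = 1 := by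
      rw [zpow_neg, zpow_natCast]; field_simp
    calc t ^ (-(m : ℤ)) * ((M * t ^ m) * (Ck * (B / 2)))
        = (t ^ (-(m : ℤ)) * t ^ m) * (M * (Ck * (B / 2))) := by ring
      _ = _ := by rw [this, one_mul]
  have h11 := mul_le_mul_of_nonneg_left h1 (zpow_nonneg ht.le (-(m : ℤ)))
  linarith

section

variable {D ρ t : ℝ} (hne : S.Nonempty) (hD : 0 < D) (hT : ∀ c ∈ S, c ∈ Tᗮ)

include hne hD

omit [MeasurableSpace E] [BorelSpace E] in
lemma wR_ge (hsep : NG.Sep S (D ^ 2)) : D / 3 ≤ wR S D := by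
  have h1 := wR_sq_ge (S := S) hD (sq_nonneg D) hsep
  have h2 := wR_pos S hD
  have h3 : min (D ^ 2) (D ^ 2 / 9) = D ^ 2 / 9 := min_eq_right (by nlinarith [sq_nonneg D])
  rw [h3] at h1
  by_contra hcon
  push Not at hcon
  have : wR S D ^ 2 < (D / 3) ^ 2 := by gcongr
  rw [div_pow] at this
  norm_num at this
  linarith

include hT

omit [MeasurableSpace E] [BorelSpace E] in
lemma vert : VertF T (capF T S (wR S D)) := vertF_capF hne (wR_pos S hD) (far_wR S) hT

omit [MeasurableSpace E] [BorelSpace E] hT in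
lemma cap_le {y : E} (h : ∃ c ∈ S, ‖hgt T c y‖ ≤ ρ * t) :
    capF T S (wR S D) y ≤ ρ ^ 2 * t ^ 2 / 2 := by
  obtain ⟨c, hc, h1⟩ := h
  refine (capF_le_hsq hne (wR_pos S hD) (far_wR S) hc y).trans ?_
  unfold hsq
  have : ‖hgt T c y‖ ^ 2 ≤ (ρ * t) ^ 2 := by gcongr
  rw [mul_pow] at this
  linarith

/-- **all the tilt is seen** -/
lemma hessK_eq (hC : CylStat m T G h ν P) (hk : Kern k k' K) (ht : 0 < t)
    (hsep : NG.Sep S (D ^ 2)) (hnear : Near T ν x S ρ t) (hρ : ρ * t ≤ D / 6) :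
    hessK m T x K (capF T S (wR S D)) P ν t = tiltK m T x K P ν t := by
  unfold hessK tiltK
  congr 1
  refine integral_congr_ae ?_
  filter_upwards [hnear.ae ht.le, hC.proj] with y hy hp
  obtain ⟨Q, -, hQ⟩ := hp
  by_cases hlt : bsq T x y < t ^ 2
  · obtain ⟨c, hc, h1⟩ := hy hlt
    have h2 := wR_ge hne hD hsep
    have h3 : hess (capF T S (wR S D)) (P y) y = FV.tilt T (P y) := by
      rw [hQ]
      exact hess_capF_win hne (wR_pos S hD) (far_wR S) hT _ hc (by linarith)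
    rw [h3, TH.tilt_agree]
  · have h4 : K (bsq T x y / t ^ 2) = 0 := by
      refine hk.pK.zero _ ?_
      rw [one_le_div (by positivity)]
      exact not_lt.1 hlt
    rw [h4]; simp

/-- **The height path of a stage without gap energy.** -/
theorem stage_path (hC : CylStat m T G h ν P) (hk : Kern k k' K) (hk0 : ∀ s, s ≤ 1 / 4 → k s = 0)
    {s α β R' C₁ δ : ℝ} (hs : 0 < s) (hR : s * Real.exp β < R') (hG : BallIn T G x R')
    (hδ : 0 < δ) (hC₁ : (m : ℝ) - 2 ≤ C₁)
    (hnear : ∀ u ∈ Icc α β, Near T ν x S ρ (s * Real.exp u)) :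
    NG.HPath α β C₁ (4 * m * ρ ^ 2) (gU m T x K P ν s) (bU m T x k P ν s) (g₁U m T x k K P ν s)
      (HU m T x k (capF T S (wR S D)) P ν s δ) (H₁U m T x k K (capF T S (wR S D)) P ν s)
      (gSU m T x K (capF T S (wR S D)) P ν s) := by
  refine hpath hC hk hk0 (vert hne hD hT) hs hR hG hδ hC₁ (by positivity) fun u hu => ?_
  have ht : 0 < s * Real.exp u := by positivity
  filter_upwards [(hnear u hu).ae ht.le] with y hy hlt
  have h1 := cap_le hne hD (hy hlt)
  calc 8 * (m : ℝ) * capF T S (wR S D) y ≤ 8 * m * (ρ ^ 2 * (s * Real.exp u) ^ 2 / 2) := by gcongr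
    _ = _ := by ring

lemma gSU_eq (hC : CylStat m T G h ν P) (hk : Kern k k' K) {s u : ℝ} (hs : 0 < s)
    (hsep : NG.Sep S (D ^ 2)) (hnear : Near T ν x S ρ (s * Real.exp u))
    (hρ : ρ * (s * Real.exp u) ≤ D / 6) :
    gSU m T x K (capF T S (wR S D)) P ν s u = gU m T x K P ν s u :=
  hessK_eq hne hD hT hC hk (by positivity) hsep hnear hρ

/-- the initial bound -/
lemma HU_le_init (hC : CylStat m T G h ν P) (hk : Kern k k' K) {Ck : ℝ}
    (hCk : ∀ s, 0 ≤ s → k s ≤ Ck) {s u δ M : ℝ} (hs : 0 < s)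
    (hnear : Near T ν x S ρ (s * Real.exp u))
    (hM : ν.real (QP.bset T x (s * Real.exp u)) ≤ M * (s * Real.exp u) ^ m) :
    HU m T x k (capF T S (wR S D)) P ν s δ u ≤ Ck * (ρ ^ 2 * (s * Real.exp u) ^ 2) * M + δ := by
  have ht : 0 < s * Real.exp u := by positivity
  have h1 := hgtTh_le (x := x) hC hk hCk (vert hne hD hT).nonneg ht
    (B := ρ ^ 2 * (s * Real.exp u) ^ 2) (by positivity) (by
      filter_upwards [hnear.ae ht.le] with y hy hlt using cap_le hne hD (hy hlt)) hM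
  unfold HU
  linarith

end

end Vale.Agent.P214.SG
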