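import Vale.Agent.P214.SG.Cone
import Vale.Agent.P214.SG.Stage
import Vale.Agent.P214.SG.Ladder
import Vale.Agent.P214.SG.Growth

/-!
# P214, block SG: the steep growth lemma

`x ∈ T`; at all scales `R ≤ t ≤ 5 R e^S` the excess is at most `η₁ t^m`, at scale `R` the tilt energy
is at least `η₂ R²`, and `∫_R^{R e^S} Y dr/r ≤ B₀`.  Then there are `κ ≤ S` and `o ∈ [R, κ R]` with
`(1 + u/κ)^p A_x(R) ≤ C A_x(o e^u)` for all `0 ≤ u ≤ Φ(κ)`, `Φ` being an arbitrary function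
prescribed in advance (`S` depends on `Φ` and `η₂`; `η₁, C` do not).
-/

open Set Filter Topology MeasureTheory Metric
open scoped RealInnerProductSpace

set_option linter.all false

namespace Vale.Agent.P214.SG

open Vale.Agent.P214.FV Vale.Agent.P214.ODE Vale.Agent.P214.NGP Vale.Agent.P214.CAPF

section

variable {E : Type*} [NormedAddCommGroup E] [InnerProductSpace ℝ E] [FiniteDimensional ℝ E]
  [MeasurableSpace E] [BorelSpace E]

/-- `A_x(t) = max (a(t)) (g(t)/2)` -/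
noncomputable def AT (m : ℕ) (T : Submodule ℝ E) (x : E) (K : ℝ → ℝ) (P : E → E →L[ℝ] E)
    (ν : Measure E) (cQ t : ℝ) : ℝ := max (aK m T x K ν cQ t) (tiltK m T x K P ν t / 2)

lemma AT_eq (m : ℕ) (T : Submodule ℝ E) (x : E) (K : ℝ → ℝ) (P : E → E →L[ℝ] E)
    (ν : Measure E) (cQ s u : ℝ) :
    NG.Am (aU m T x K ν cQ s) (gU m T x K P ν s) u = AT m T x K P ν cQ (s * Real.exp u) := rfl

end


section

variable {E : Type*} [NormedAddCommGroup E] [InnerProductSpace ℝ E] [FiniteDimensional ℝ E]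
  [MeasurableSpace E] [BorelSpace E]
variable {m : ℕ} {T : Submodule ℝ E} {G : Set E} {h : ℝ} {ν : Measure E} {P : E → E →L[ℝ] E}
  {x : E} {k k' K : ℝ → ℝ}

/-- the growth statement for one stage without gap energy -/
def GrowthC (p B₀ M C₁ ε C : ℝ) : Prop :=
  ∀ {α β κ : ℝ} {a g b g₁ H H₁ gS : ℝ → ℝ}, NG.EPath α β M a g b g₁ →
    NG.HPath α β C₁ ε g b g₁ H H₁ gS → (∀ u ∈ Icc α β, gS u = g u) → α ≤ β →
    (∫ u in α..β, NG.Yp a g u) ≤ B₀ → 1 ≤ κ → H α ≤ κ * NG.Am a g α →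
    ∀ u ∈ Icc α β, (1 + (u - α) / κ) ^ p * NG.Am a g α ≤ C * NG.Am a g u

/-- growth over the stage given by the level -/
theorem core (hC : CylStat m T G h ν P) (hk : Kern k k' K)
    (hk0 : ∀ s, s ≤ 1 / 4 → k s = 0) {Ck : ℝ} (hCk : ∀ s, 0 ≤ s → k s ≤ Ck)
    {p B₀ M C e cQ S R L o Λ D κ g₀ L₂ : ℝ} (hB0 : 0 ≤ B₀)
    (hgrow : GrowthC p B₀ m m (4 * m * (5 * e) ^ 2) C) (hC1 : 0 ≤ C)
    (hL₂ : L₂ = Real.exp (NG.C2 m m * B₀))
    (hR : 0 < R) (hL : L = R * Real.exp S) (hG : BallIn T G x (2 * L)) (hg0 : 0 < g₀)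
    (hlow : g₀ ≤ tiltK m T x K P ν R)
    (hbud : (∫ u in (0:ℝ)..S, NG.Yp (aU m T x K ν cQ R) (gU m T x K P ν R) u) ≤ B₀)
    (hmass : ν.real (QP.bset T x o) ≤ M * o ^ m)
    (hRo : R ≤ o) (hΛ : 0 ≤ Λ) (hoL : o * Real.exp Λ ≤ L)
    {S₀ : Finset E} (hne : S₀.Nonempty) (hT : ∀ c ∈ S₀, c ∈ Tᗮ) (hD : 0 < D)
    (hsep : NG.Sep S₀ (D ^ 2)) (hnear : ∀ t, o ≤ t → t ≤ L → Near T ν x S₀ (5 * e) t)
    (he : 0 < e) (hoD : 5 * e * (o * Real.exp Λ) ≤ D / 6) (hκ1 : 1 ≤ κ)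
    (hκ : Ck * ((5 * e) ^ 2 * o ^ 2) * M + R ^ 2 ≤ κ * (g₀ / 2 / L₂)) :
    ∀ u, 0 ≤ u → u ≤ Λ →
      (1 + u / κ) ^ p * AT m T x K P ν cQ R ≤ L₂ * C * AT m T x K P ν cQ (o * Real.exp u) := by
  haveI := hC.fin
  have hm0 : (0:ℝ) ≤ m := Nat.cast_nonneg m
  have ho0 : 0 < o := hR.trans_le hRo
  have hL0 : 0 < L := by rw [hL]; positivity
  have e7 : 0 < L₂ := by rw [hL₂]; positivity
  have hoR1 : 1 ≤ o / R := by rw [le_div_iff₀ hR]; linarith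
  obtain ⟨α, hα⟩ : ∃ α, α = Real.log (o / R) := ⟨_, rfl⟩
  have hα0 : 0 ≤ α := by rw [hα]; exact Real.log_nonneg hoR1
  have hoα : R * Real.exp α = o := by
    rw [hα, Real.exp_log (by positivity)]; field_simp
  obtain ⟨β, hβ⟩ : ∃ β, β = α + Λ := ⟨_, rfl⟩
  have hαβ : α ≤ β := by linarith
  have hβo : R * Real.exp β = o * Real.exp Λ := by
    rw [hβ, Real.exp_add, ← mul_assoc, hoα]
  have hβS : β ≤ S := by
    have h1 : R * Real.exp β ≤ R * Real.exp S := by rw [hβo, ← hL]; exact hoL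
    exact Real.exp_le_exp.1 (le_of_mul_le_mul_left h1 hR)
  have hscale : ∀ u ∈ Icc α β, o ≤ R * Real.exp u ∧ R * Real.exp u ≤ o * Real.exp Λ := by
    intro u hu
    constructor
    · rw [← hoα]; gcongr; exact hu.1
    · rw [← hβo]; gcongr; exact hu.2
  -- the energy path
  have hep : NG.EPath 0 S m (aU m T x K ν cQ R) (gU m T x K P ν R) (bU m T x k P ν R)
      (g₁U m T x k K P ν R) := epath hC hk cQ hR (R := 2 * L) (by linarith) hG
        (by rw [Real.exp_zero, mul_one]; exact hg0.trans_le hlow) (by linarith)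
  have hhp := stage_path (x := x) (S := S₀) (D := D) (ρ := 5 * e) (C₁ := (m : ℝ)) (δ := R ^ 2)
    (α := α) (β := β) hne hD hT hC hk hk0 hR (R' := 2 * L) (by rw [hβo]; linarith) hG
    (by positivity) (by linarith) (fun u hu => hnear _ (hscale u hu).1 ((hscale u hu).2.trans hoL))
  have hgS : ∀ u ∈ Icc α β, gSU m T x K (capF T S₀ (wR S₀ D)) P ν R u = gU m T x K P ν R u := by
    intro u hu
    refine gSU_eq hne hD hT hC hk hR hsep (hnear _ (hscale u hu).1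
      ((hscale u hu).2.trans hoL)) (le_trans ?_ hoD)
    have h1 := (hscale u hu).2
    gcongr
  have hbud' : (∫ u in α..β, NG.Yp (aU m T x K ν cQ R) (gU m T x K P ν R) u) ≤ B₀ :=
    NG.int_Y_le hep hbud hα0 hαβ hβS
  have hAα : AT m T x K P ν cQ R ≤ L₂ * NG.Am (aU m T x K ν cQ R) (gU m T x K P ν R) α := by
    have h1 := NG.A_quasi' hep hm0 hm0 hbud le_rfl hα0 (hαβ.trans hβS)
    rw [AT_eq, Real.exp_zero, mul_one, ← hL₂] at h1
    exact h1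
  have hAlow : g₀ / 2 ≤ AT m T x K P ν cQ R := by
    unfold AT
    refine le_trans ?_ (le_max_right _ _)
    linarith
  -- the initial bound
  have hinit : HU m T x k (capF T S₀ (wR S₀ D)) P ν R (R ^ 2) α
      ≤ κ * NG.Am (aU m T x K ν cQ R) (gU m T x K P ν R) α := by
    have hot : R * Real.exp α ≤ L := by
      rw [hoα]
      refine le_trans ?_ hoL
      have := Real.one_le_exp hΛ
      nlinarith
    have h1 := HU_le_init (x := x) (S := S₀) (D := D) (ρ := 5 * e) (δ := R ^ 2) (u := α)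
      hne hD hT hC hk hCk hR (hnear _ (by rw [hoα]) hot) (by rw [hoα]; exact hmass)
    rw [hoα] at h1
    refine h1.trans (hκ.trans ?_)
    have e6 : g₀ / 2 / L₂ ≤ NG.Am (aU m T x K ν cQ R) (gU m T x K P ν R) α := by
      rw [div_le_iff₀ e7]; linarith [hAlow.trans hAα]
    gcongr
  have hfin := hgrow (hep.mono hα0 hβS) hhp hgS hαβ hbud' hκ1 hinit
  intro u hu0 huΦ
  have hu : α + u ∈ Icc α β := ⟨by linarith, by rw [hβ]; linarith⟩
  have h1 := hfin (α + u) hu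
  rw [add_sub_cancel_left, AT_eq, AT_eq] at h1
  have h2 : R * Real.exp (α + u) = o * Real.exp u := by
    rw [Real.exp_add, ← mul_assoc, hoα]
  rw [h2] at h1
  rw [AT_eq] at hAα
  have h3 : 0 ≤ (1 + u / κ) ^ p := by positivity
  calc (1 + u / κ) ^ p * AT m T x K P ν cQ R
      ≤ (1 + u / κ) ^ p * (L₂ * AT m T x K P ν cQ (R * Real.exp α)) := by gcongr
    _ = L₂ * ((1 + u / κ) ^ p * AT m T x K P ν cQ (R * Real.exp α)) := by ring
    _ ≤ L₂ * (C * AT m T x K P ν cQ (o * Real.exp u)) := by gcongr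
    _ = _ := by ring

omit [MeasurableSpace E] [BorelSpace E] in
lemma fib_near {S₀ F : Finset E} {d e o t : ℝ} {w : E} (hd : 0 ≤ d) (hcov : NG.Cov S₀ F (d ^ 2))
    (hdo : d ≤ e * o) (he : 0 ≤ e) (hot : o ≤ t) (h : ∃ c ∈ F, ‖co T w - c‖ ≤ 4 * e * t) :
    ∃ c ∈ S₀, ‖co T w - c‖ ≤ 5 * e * t := by
  obtain ⟨c, hc, h1⟩ := h
  obtain ⟨c', hc', h2⟩ := hcov c hc
  refine ⟨c', hc', ?_⟩
  have h3 : dist c c' ≤ d := by
    by_contra hcon
    push Not at hcon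
    have : d ^ 2 < dist c c' ^ 2 := by gcongr
    linarith
  have h5 : e * o ≤ e * t := by gcongr
  calc ‖co T w - c'‖ = ‖(co T w - c) + (c - c')‖ := by congr 1; abel
    _ ≤ 4 * e * t + dist c c' := (norm_add_le _ _).trans (by
        rw [dist_eq_norm]; gcongr)
    _ ≤ 5 * e * t := by linarith

lemma fib_nonempty (hk : Kern k k' K) {R : ℝ} (hR : 0 < R) (hg : 0 < tiltK m T x K P ν R)
    {F : Finset E} {C : ℝ}
    (hF : ∀ y ∈ ν.support, ‖bx T x y‖ ≤ R → ∃ c ∈ F, ‖co T y - c‖ ≤ C) : F.Nonempty := by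
  by_contra hcon
  rw [Finset.not_nonempty_iff_eq_empty] at hcon
  have h1 : ∀ᵐ y ∂ν, K (bsq T x y / R ^ 2) * tilt T P y = 0 := by
    filter_upwards [Measure.support_mem_ae (μ := ν)] with y hy
    by_cases hlt : bsq T x y < R ^ 2
    · have h2 : ‖bx T x y‖ ≤ R := (lt_of_pow_lt_pow_left₀ 2 hR.le hlt).le
      obtain ⟨c, hc, -⟩ := hF y hy h2
      rw [hcon] at hc
      exact absurd hc (Finset.notMem_empty c)
    · have h4 : K (bsq T x y / R ^ 2) = 0 := by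
        refine hk.pK.zero _ ?_
        rw [one_le_div (by positivity)]
        exact not_lt.1 hlt
      rw [h4, zero_mul]
  have h2 : tiltK m T x K P ν R = 0 := by
    unfold tiltK
    rw [integral_eq_zero_of_ae h1, mul_zero]
  exact hg.ne' h2

end

/-- the numbers of the ladder -/
structure Nums (e K₁ : ℝ) (Φ : ℝ → ℝ) (N : ℕ) (S : ℝ) : Prop where
  one_le : 1 ≤ S
  level : ∀ r < N, ∃ Λ : ℝ, 0 ≤ Λ ∧ Φ (K₁ * lad (fun y => |Φ (K₁ * y ^ 2)|) r ^ 2) ≤ Λ ∧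
    1 ≤ K₁ * lad (fun y => |Φ (K₁ * y ^ 2)|) r ^ 2 ∧
    K₁ * lad (fun y => |Φ (K₁ * y ^ 2)|) r ^ 2 ≤ S ∧
    1 ≤ lad (fun y => |Φ (K₁ * y ^ 2)|) r ∧
    lad (fun y => |Φ (K₁ * y ^ 2)|) (r + 1)
      = 30 * Real.exp Λ * lad (fun y => |Φ (K₁ * y ^ 2)|) r ∧
    lad (fun y => |Φ (K₁ * y ^ 2)|) r / e * Real.exp Λ ≤ Real.exp S

lemma exists_nums {e K₁ : ℝ} (he : 0 < e) (he1 : e ≤ 1) (hK₁ : 1 ≤ K₁) (Φ : ℝ → ℝ) (N : ℕ) :
    ∃ S, Nums e K₁ Φ N S := by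
  set ψ : ℝ → ℝ := fun y => |Φ (K₁ * y ^ 2)| with hψ
  have hψ0 : ∀ y, 0 ≤ ψ y := fun y => abs_nonneg _
  have hyN1 : 1 ≤ lad ψ N := one_le_lad hψ0 N
  have hlog0 : 0 ≤ Real.log (lad ψ N / e) := by
    refine Real.log_nonneg ?_
    rw [le_div_iff₀ he]; linarith
  have hκN : 1 ≤ K₁ * lad ψ N ^ 2 := by
    have : 1 ≤ lad ψ N ^ 2 := one_le_pow₀ hyN1
    nlinarith
  refine ⟨Real.log (lad ψ N / e) + K₁ * lad ψ N ^ 2, by linarith, fun r hr => ?_⟩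
  have hy1 : 1 ≤ lad ψ r := one_le_lad hψ0 r
  have hyle : lad ψ (r + 1) ≤ lad ψ N := lad_mono hψ0 (by omega)
  have hyN' : lad ψ r ≤ lad ψ N := lad_mono hψ0 hr.le
  refine ⟨ψ (lad ψ r), hψ0 _, le_abs_self _, ?_, ?_, hy1, rfl, ?_⟩
  · have : 1 ≤ lad ψ r ^ 2 := one_le_pow₀ hy1
    nlinarith
  · have h1 : K₁ * lad ψ r ^ 2 ≤ K₁ * lad ψ N ^ 2 := by gcongr
    linarith
  · have h1 : lad ψ r / e * Real.exp (ψ (lad ψ r)) ≤ lad ψ N / e := by
      have h2 : lad ψ r * Real.exp (ψ (lad ψ r)) ≤ lad ψ N := by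
        refine le_trans ?_ hyle
        show _ ≤ 30 * Real.exp (ψ (lad ψ r)) * lad ψ r
        have : 0 < Real.exp (ψ (lad ψ r)) * lad ψ r := by positivity
        nlinarith
      calc lad ψ r / e * Real.exp (ψ (lad ψ r)) = (lad ψ r * Real.exp (ψ (lad ψ r))) / e := by
            ring
        _ ≤ lad ψ N / e := by gcongr
    refine h1.trans ?_
    rw [← Real.log_le_iff_le_exp (by positivity)]
    linarith

/-- **The steep growth lemma.** -/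
theorem steep (E : Type*) [NormedAddCommGroup E] [InnerProductSpace ℝ E] [FiniteDimensional ℝ E]
    [MeasurableSpace E] [BorelSpace E] (m : ℕ) {k k' K : ℝ → ℝ} (hk : Kern k k' K)
    (hk0 : ∀ s, s ≤ 1 / 4 → k s = 0) {Ck : ℝ} (hCk : ∀ s, 0 ≤ s → k s ≤ Ck) {p B₀ M : ℝ}
    (hp : 0 < p) (hB0 : 0 ≤ B₀) (hM : 0 ≤ M) :
    ∃ η₁ C : ℝ, 0 < η₁ ∧ 1 ≤ C ∧ ∀ η₂ : ℝ, 0 < η₂ → ∀ Φ : ℝ → ℝ, ∃ S : ℝ, 1 ≤ S ∧
    ∀ (Q : ℕ) (T : Submodule ℝ E) (z : E) (R₀ h δ : ℝ) (ν : Measure E) (P : E → E →L[ℝ] E)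
      (cQ : ℝ), Skel.IntCyl m Q T z R₀ h δ ν P → ∀ x ∈ T, ∀ R : ℝ, 0 < R →
      ‖x - z‖ + 6 * (R * Real.exp S) ≤ R₀ →
      (∀ t, R ≤ t → t ≤ 5 * (R * Real.exp S) → QP.Dex T P ν x t ≤ η₁ * t ^ m) →
      (∀ t, R ≤ t → t ≤ R * Real.exp S → ν.real (QP.bset T x t) ≤ M * t ^ m) →
      η₂ * R ^ 2 ≤ tiltK m T x K P ν R →
      (∫ u in (0:ℝ)..S, NG.Yp (aU m T x K ν cQ R) (gU m T x K P ν R) u) ≤ B₀ →
      ∃ κ o : ℝ, 1 ≤ κ ∧ κ ≤ S ∧ R ≤ o ∧ o ≤ κ * R ∧ o * Real.exp (Φ κ) ≤ R * Real.exp S ∧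
        ∀ u, 0 ≤ u → u ≤ Φ κ →
          (1 + u / κ) ^ p * AT m T x K P ν cQ R ≤ C * AT m T x K P ν cQ (o * Real.exp u) := by
  have hCk0 : 0 ≤ Ck := (hk.nonneg 0).trans (hCk 0 le_rfl)
  have hm0 : (0:ℝ) ≤ m := Nat.cast_nonneg m
  obtain ⟨ε₀, C, hε₀, hε₀1, hC1, hgrow⟩ := growth (p := p) (B₀ := B₀) (M := (m : ℝ))
    (C₁ := (m : ℝ)) hp hB0 hm0 hm0
  -- the cone parameter
  obtain ⟨e, he⟩ : ∃ e, e = ε₀ / (100 * ((m : ℝ) + 1)) := ⟨_, rfl⟩
  have he0 : 0 < e := by rw [he]; positivity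
  have he1 : e ≤ 1 / 100 := by
    rw [he, div_le_div_iff₀ (by positivity) (by norm_num)]
    nlinarith
  have hme : 4 * (m : ℝ) * (5 * e) ^ 2 ≤ ε₀ := by
    have h1 : (m : ℝ) * e ≤ ε₀ / 100 := by
      rw [he, mul_div_assoc', div_le_div_iff₀ (by positivity) (by norm_num)]
      nlinarith
    have h2 : 4 * (m : ℝ) * (5 * e) ^ 2 = 100 * (m * e) * e := by ring
    rw [h2]
    calc 100 * (m * e) * e ≤ 100 * (ε₀ / 100) * 1 := by gcongr; linarith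
      _ = ε₀ := by ring
  have hgC : GrowthC p B₀ m m (4 * m * (5 * e) ^ 2) C := by
    intro α β κ a g b g₁ H H₁ gS h1 h2 h3 h4 h5 h6 h7
    exact hgrow h1 h2 h3 h4 (by positivity) hme h5 h6 h7
  obtain ⟨L₂, hL₂⟩ : ∃ L₂, L₂ = Real.exp (NG.C2 m m * B₀) := ⟨_, rfl⟩
  have hC2 : 0 ≤ NG.C2 (m : ℝ) m := NG.C2_nonneg hm0 hm0
  have hL1 : 1 ≤ L₂ := by rw [hL₂]; exact Real.one_le_exp (mul_nonneg hC2 hB0)
  refine ⟨eC m e, L₂ * C, eC_pos m he0, one_le_mul_of_one_le_of_one_le hL1 hC1, ?_⟩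
  intro η₂ hη₂ Φ
  obtain ⟨K₁, hK₁⟩ : ∃ K₁, K₁ = (25 * Ck * M + 1) * (2 * L₂) / η₂ + 1 / e := ⟨_, rfl⟩
  have hKa : 0 ≤ (25 * Ck * M + 1) * (2 * L₂) / η₂ := by positivity
  have hK1e : 1 / e ≤ K₁ := by rw [hK₁]; linarith
  have h1e : 1 ≤ 1 / e := by rw [le_div_iff₀ he0]; linarith
  have hK1 : 1 ≤ K₁ := h1e.trans hK1e
  obtain ⟨S, hNum⟩ := exists_nums he0 (by linarith) hK1 Φ ⌈Cc m * M⌉₊
  have hS1 := hNum.one_le
  refine ⟨S, hS1, ?_⟩
  intro Q T z R₀ h δ ν P cQ hI x hx R hR hdom hexc hmass hlow hbud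
  have hxx : T.starProjection x = x := Submodule.starProjection_eq_self_iff.2 hx
  have hRL : R ≤ R * Real.exp S :=
    le_mul_of_one_le_right hR.le (Real.one_le_exp (zero_le_one.trans hS1))
  obtain ⟨L, hL⟩ : ∃ L, L = R * Real.exp S := ⟨_, rfl⟩
  rw [← hL] at hdom hexc hmass hRL
  have hG : BallIn T (ball z R₀) x (2 * L) := by
    intro y hy hy2
    rw [hxx] at hy2
    rw [mem_ball, dist_eq_norm]
    calc ‖y - z‖ = ‖(y - x) + (x - z)‖ := by congr 1; abel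
      _ ≤ 2 * L + ‖x - z‖ := (norm_add_le _ _).trans (by gcongr)
      _ < R₀ := by linarith
  -- the fibre
  obtain ⟨F, hFT, hFc, hF⟩ := exists_fibre hI he0 (by linarith) hx hR hRL hdom hexc
    (hmass R le_rfl hRL)
  have hg0 : 0 < η₂ * R ^ 2 := by positivity
  have hFne : F.Nonempty := fib_nonempty (K := K) hk hR (hg0.trans_le hlow) (hF R le_rfl hRL)
  have hFN : F.card ≤ ⌈Cc m * M⌉₊ := by
    have h1 : (F.card : ℝ) ≤ ⌈Cc m * M⌉₊ := hFc.trans (Nat.le_ceil _)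
    exact_mod_cast h1
  -- the level
  obtain ⟨r, hr, S₀, hS₀F, hS₀ne, hsep, hcov⟩ := ladder (S := F) hFne hFN
    (d := fun r => R * lad (fun y => |Φ (K₁ * y ^ 2)|) r)
    (fun r => mul_nonneg hR.le (zero_le_one.trans (one_le_lad (fun _ => abs_nonneg _) r)))
    (fun r => mul_le_mul_of_nonneg_left (lad_le_succ (fun _ => abs_nonneg _) r) hR.le)
  obtain ⟨Λ, hΛ0, hΛ, hκ1, hκS, hy1, hynext, hlast⟩ := hNum.level r hr
  generalize lad (fun y => |Φ (K₁ * y ^ 2)|) r = y at *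
  generalize lad (fun y => |Φ (K₁ * y ^ 2)|) (r + 1) = y' at *
  have hy'0 : 0 < y' := by rw [hynext]; positivity
  have hye1 : 1 ≤ y / e := by rw [le_div_iff₀ he0]; linarith
  have hRo : R ≤ R * (y / e) := le_mul_of_one_le_right hR.le hye1
  have hoκ : R * (y / e) ≤ K₁ * y ^ 2 * R := by
    have h1 : y / e ≤ K₁ * y ^ 2 := by
      calc y / e = 1 / e * y := by ring
        _ ≤ K₁ * (y * y) := by
            have : y ≤ y * y := le_mul_of_one_le_right (zero_le_one.trans hy1) hy1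
            gcongr
        _ = _ := by ring
    calc R * (y / e) ≤ R * (K₁ * y ^ 2) := by gcongr
      _ = _ := by ring
  have hoS : R * (y / e) * Real.exp Λ ≤ L := by
    rw [hL, mul_assoc]
    gcongr
  have hoL : R * (y / e) ≤ L :=
    (le_mul_of_one_le_right (by positivity) (Real.one_le_exp hΛ0)).trans hoS
  refine ⟨K₁ * y ^ 2, R * (y / e), hκ1, hκS, hRo, hoκ, ?_, ?_⟩
  · rw [← hL]
    refine le_trans ?_ hoS
    gcongr
  have hcore := core (x := x) (cQ := cQ) hI.cyl hk hk0 hCk hB0 hgC (zero_le_one.trans hC1) hL₂ hR hL hG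
    hg0 hlow hbud (hmass _ hRo hoL) hRo hΛ0 hoS hS₀ne (fun c hc => hFT c (hS₀F hc))
    (mul_pos hR hy'0) hsep (fun t hot htL w hw hwt => fib_near (d := R * y) (o := R * (y / e))
      (by positivity) hcov (le_of_eq (by field_simp)) he0.le hot
      (hF t (hRo.trans hot) htL w hw hwt)) he0 ?_ hκ1 ?_
  · intro u hu0 hu
    exact hcore u hu0 (hu.trans hΛ)
  · rw [hynext]
    refine le_of_eq ?_
    field_simp
    norm_num
  · have e5 : (25 * Ck * M + 1) * (2 * L₂) / η₂ * y ^ 2 ≤ K₁ * y ^ 2 := by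
      have : (25 * Ck * M + 1) * (2 * L₂) / η₂ ≤ K₁ := by
        rw [hK₁]
        have : 0 ≤ 1 / e := by positivity
        linarith
      gcongr
    have e2 : (5 * e) ^ 2 * (R * (y / e)) ^ 2 = 25 * (y ^ 2 * R ^ 2) := by
      field_simp
      norm_num
    rw [e2]
    have e3 : 1 ≤ y ^ 2 := one_le_pow₀ hy1
    have e4 : 0 < R ^ 2 := by positivity
    have e8 : 0 < L₂ := by positivity
    calc Ck * (25 * (y ^ 2 * R ^ 2)) * M + R ^ 2
        ≤ Ck * (25 * (y ^ 2 * R ^ 2)) * M + y ^ 2 * R ^ 2 := by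
          have := le_mul_of_one_le_left e4.le e3
          gcongr
      _ = (25 * Ck * M + 1) * y ^ 2 * R ^ 2 := by ring
      _ = (25 * Ck * M + 1) * (2 * L₂) / η₂ * y ^ 2 * (η₂ * R ^ 2 / 2 / L₂) := by
          field_simp
      _ ≤ K₁ * y ^ 2 * (η₂ * R ^ 2 / 2 / L₂) := by gcongr

end Vale.Agent.P214.SG
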